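import Mathlib
/-!
# Row 44 (circulant Hadamard matrices): evaluation of a sequence at roots of unity, valuation rings
-/

set_option autoImplicit false

open Finset Polynomial

namespace Crest.Agent.R44

/-- The polynomial with coefficients `H 0, …, H (n-1)` evaluated at `x`. -/
def E (n : ℕ) (H : ℕ → ℤ) {R : Type} [CommRing R] (x : R) : R :=
  ∑ j ∈ range n, (H j : R) * x ^ j

/-- `H H* = n` in the group ring of `ℤ/n`, tested in all commutative rings. -/
def Perf (n : ℕ) (H : ℕ → ℤ) : Prop :=
  ∀ (R : Type) [CommRing R] (x y : R), x ^ n = 1 → x * y = 1 → E n H x * E n H y = n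

theorem map_E {n : ℕ} {H : ℕ → ℤ} {R S : Type} [CommRing R] [CommRing S] (φ : R →+* S) (x : R) :
    φ (E n H x) = E n H (φ x) := by
  simp [E, map_sum]

theorem perf_of_matrix {n : ℕ} (hn : 0 < n) (h : Fin n → ℤ)
    (hH : Matrix.circulant h * (Matrix.circulant h).transpose =
      (n : ℤ) • (1 : Matrix (Fin n) (Fin n) ℤ)) :
    Perf n (fun j => if hj : j < n then h ⟨j, hj⟩ else 1) := by
  haveI : NeZero n := ⟨hn.ne'⟩
  intro R _ x y hx hxy
  have hE : ∀ z : R, E n (fun j => if hj : j < n then h ⟨j, hj⟩ else 1) z =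
      ∑ j : Fin n, (h j : R) * z ^ (j : ℕ) := by
    intro z
    rw [E, ← Fin.sum_univ_eq_sum_range
      (fun j => (((if hj : j < n then h ⟨j, hj⟩ else 1 : ℤ)) : R) * z ^ j) n]
    refine Finset.sum_congr rfl fun j _ => ?_
    simp [j.2]
  have hadd : ∀ a b : Fin n, x ^ ((a + b : Fin n) : ℕ) = x ^ (a : ℕ) * x ^ (b : ℕ) := by
    intro a b
    rw [Fin.val_add, ← pow_add]
    conv_rhs => rw [← Nat.mod_add_div ((a : ℕ) + b) n, pow_add, pow_mul, hx, one_pow, mul_one]
  have hcor : ∀ i : Fin n, ∑ b : Fin n, h (i + b) * h b = if i = 0 then (n : ℤ) else 0 := by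
    intro i
    have := congrFun (congrFun hH i) 0
    rw [Matrix.mul_apply] at this
    simp only [Matrix.transpose_apply, Matrix.circulant_apply, Matrix.smul_apply, Matrix.one_apply,
      smul_eq_mul, mul_ite, mul_one, mul_zero] at this
    rw [← this, ← Equiv.sum_comp (Equiv.neg (Fin n))]
    refine Finset.sum_congr rfl fun b _ => ?_
    simp [sub_eq_add_neg]
  rw [hE, hE, mul_comm, Finset.sum_mul]
  have h1 : ∀ b : Fin n, (h b : R) * y ^ (b : ℕ) * ∑ j : Fin n, (h j : R) * x ^ (j : ℕ) =
      ∑ i : Fin n, ((h (i + b) * h b : ℤ) : R) * x ^ (i : ℕ) := by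
    intro b
    rw [← Equiv.sum_comp (Equiv.addRight b), Finset.mul_sum]
    refine Finset.sum_congr rfl fun i _ => ?_
    have : x ^ (b : ℕ) * y ^ (b : ℕ) = 1 := by rw [← mul_pow, hxy, one_pow]
    simp only [Equiv.coe_addRight, hadd, Int.cast_mul]
    linear_combination (h b : R) * (h (i + b) : R) * x ^ (i : ℕ) * this
  simp_rw [h1]
  rw [Finset.sum_comm]
  simp_rw [← Finset.sum_mul, ← Int.cast_sum, hcor]
  rw [Finset.sum_eq_single 0]
  · simp
  · intro b _ hb
    simp [hb]
  · simp

section Val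

variable {K : Type} [Field K]

theorem integral_of_forall_mem {x : K} (h : ∀ V : ValuationSubring K, x ∈ V) :
    IsIntegral ℤ x := by
  by_contra hx
  have hx' : x ∉ (integralClosure ℤ K).toSubring := hx
  haveI : IsIntegrallyClosedIn (integralClosure ℤ K).toSubring K :=
    inferInstanceAs (IsIntegrallyClosedIn (integralClosure ℤ K) K)
  obtain ⟨V, -, hV⟩ := Subring.exists_le_valuationSubring_of_isIntegrallyClosedIn hx'
  exact hV (h V)

theorem exists_val [CharZero K] {p : ℕ} (hp : p.Prime) :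
    ∃ V : ValuationSubring K, V.valuation (p : K) < 1 := by
  have hI : Ideal.span {(p : (Int.castRingHom K).range)} ≠ ⊤ := by
    rw [Ne, Ideal.span_singleton_eq_top]
    intro hu
    obtain ⟨⟨_, z, rfl⟩, hz⟩ := hu.exists_right_inv
    have h1 : (p : K) * (z : K) = 1 := by
      simpa using congrArg Subtype.val hz
    have h2 : (p : ℤ) * z = 1 := by exact_mod_cast h1
    have := Int.eq_one_or_neg_one_of_mul_eq_one h2
    have := hp.two_le
    omega
  obtain ⟨V, -, hV⟩ := Ideal.image_subset_nonunits_valuationSubring _ hI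
  refine ⟨V, V.mem_nonunits_iff.1 (hV ⟨p, Ideal.subset_span rfl, by simp⟩)⟩

theorem val_root (V : ValuationSubring K) {x : K} {n : ℕ} (hn : n ≠ 0) (hx : x ^ n = 1) :
    V.valuation x = 1 := by
  have : V.valuation x ^ n = 1 := by rw [← map_pow, hx, map_one]
  exact (pow_eq_one_iff_of_nonneg zero_le hn).1 this

theorem root_mem (V : ValuationSubring K) {x : K} {n : ℕ} (hn : n ≠ 0) (hx : x ^ n = 1) :
    x ∈ V := V.mem_of_valuation_le_one x (val_root V hn hx).le

theorem val_int_le (V : ValuationSubring K) (z : ℤ) : V.valuation (z : K) ≤ 1 :=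
  (V.valuation_le_one_iff _).2 (intCast_mem V z)

/-- An integer prime to `p` is a unit of a valuation ring over `p`. -/
theorem val_coprime (V : ValuationSubring K) {p m : ℤ} (hp : V.valuation (p : K) < 1)
    (h : IsCoprime p m) : V.valuation (m : K) = 1 := by
  obtain ⟨a, b, hab⟩ := h
  refine le_antisymm (val_int_le V m) (not_lt.1 fun hm => ?_)
  have h1 : (1 : K) = a * p + b * m := by
    have := congrArg (Int.cast : ℤ → K) hab
    push_cast at this
    exact this.symm
  have h2 : V.valuation ((a : K) * p + b * m) < 1 := by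
    refine V.valuation.map_add_lt ?_ ?_
    · rw [map_mul]
      exact mul_lt_one_of_nonneg_of_lt_one_right (val_int_le V a) zero_le hp
    · rw [map_mul]
      exact mul_lt_one_of_nonneg_of_lt_one_right (val_int_le V b) zero_le hm
  rw [← h1, map_one] at h2
  exact lt_irrefl _ h2

theorem E_mem (V : ValuationSubring K) {n : ℕ} {H : ℕ → ℤ} {x : K} (hx : x ∈ V) : E n H x ∈ V :=
  sum_mem fun j _ => mul_mem (intCast_mem V _) (pow_mem hx j)

end Val

end Crest.Agent.R44
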